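import Vale.Agent.P200.Many.Growing

/-!
P200: the lex-plus-powers inequality for all graded Betti numbers when each degree from the fourth
on is at least the sum of the previous degrees, each less one, in every number of variables from three
on and over every field; and the passage from `r ≥ c` variables to every larger number.
-/

namespace Vale.Agent.Results.P200.LexPlusPowersBetti

open Vale.P200.Many

universe u

/-- Let `n ≥ 3` and let the degrees `a` satisfy `a i ≥ ∑_{j<i} (a j - 1)` for `i ≥ 3` (indices
from zero; no condition for at most three forms). Then the lex-plus-powers statement holds for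
forms of these degrees in `n` variables over every field. For every `c ≤ r` and all degrees, if it
holds in `r` variables over every infinite field, then it holds in every `n ≥ r` variables over
every field. -/
theorem result :
    (∀ (K : Type u) [Field K] (n c : ℕ), 3 ≤ n → ∀ a : Fin c → ℕ,
      (∀ i : Fin c, 3 ≤ i.val → ∑ j ∈ Finset.Iio i, (a j - 1) ≤ a i) →
        LexPlusPowersAt K n a) ∧
    ∀ c r : ℕ, c ≤ r → ∀ a : Fin c → ℕ,
      (∀ (L : Type u) [Field L] [Infinite L], LexPlusPowersAt L r a) →
      ∀ n : ℕ, r ≤ n → ∀ (K : Type u) [Field K], LexPlusPowersAt K n a := by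
  refine ⟨fun K _ n c hn a hgrow => lexPlusPowersAt_iff.2 fun h => lppAt_growing_all hn h hgrow K h,
    fun c r hc a H n hn K _ =>
      lexPlusPowersAt_iff.2 (lppAt_mono hc (fun L _ _ => lexPlusPowersAt_iff.1 (H L)) hn K)⟩

end Vale.Agent.Results.P200.LexPlusPowersBetti
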